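import Vale.Agent.P042.H104.Heavy
import Vale.Agent.P042.H365.NumH
import Vale.Agent.P042.H565.OwnC
import Vale.Agent.P042.H685.Pin
import Vale.Agent.P042.H956.Ms
import Vale.Agent.P042.H461.LTrunc

/-!
# P042, power regime: the hypotheses on ONE law (interface between the state and the local part)

`PLaw Q S ℓ es lam u mu`: `S` = the ordinary sites (primes `K0 < p ≤ P^C1`), `ℓ i` = log of the
size of the alphabet of the site `i`, `es i` = size (log of the dyadic scale) of the site, `lam` the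
reference of the law (own or lazy own marginals of the global law), `u` the uniform weights.
A site outside `S` is a super-modulus `ZMod m` (then `lam = u` there).
-/

set_option autoImplicit false

namespace Vale.Agent.P042.H92

open Finset Vale.Agent.P042.H461 Vale.Agent.P042.H742
open Vale.Agent.P042.H779 (marg m1)
open Vale.Agent.P042.H779.Ab (Ref pw)
open Vale.Agent.P042.H779.Ab.Ll (len)

/-- The parameters of the power regime. -/
structure Prm where
  /-- `log P` -/
  p : ℝ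
  /-- the sites are the primes up to `P ^ C1` -/
  C1 : ℝ
  /-- exponent of all polynomial losses -/
  γ : ℝ
  /-- constant defect of the pins inequality -/
  a0 : ℝ
  /-- spread: pins of length at most `θ P` -/
  θ : ℝ
  /-- truncation `exp (c0 P)` of the competitors -/
  c0 : ℝ
  /-- density cap `exp (cD P)` -/
  cD : ℝ
  /-- the low primes are those up to `P ^ (2 - kap)` -/
  kap : ℝ
  /-- orders (and logarithms of super-moduli) up to `P ^ d1` -/
  d1 : ℝ
  /-- capacity of the families `P ^ (1 - G)` -/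
  G : ℝ
  /-- power in the constants of the families -/
  CK : ℕ

/-- the length of a set of sites allowed in pins -/
noncomputable def Prm.Λ (Q : Prm) : ℝ := Q.θ * Real.exp Q.p

/-- the size parameter of the family of order `m` and top scale `n` (`exp (n log 2)`) -/
noncomputable def LF (m n : ℕ) : ℝ := ((m : ℝ) * n) ^ 4

variable {ι : Type*} [Fintype ι] [DecidableEq ι] {V : ι → Type*} [∀ i, Fintype (V i)]
  [∀ i, DecidableEq (V i)]

/-- the rates of the family of order `m` and top scale `n` -/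
noncomputable def tF (Q : Prm) (S : Finset ι) (es : ι → ℝ) (m n : ℕ) (i : ι) : ℝ :=
  if i ∈ S ∧ es i ≤ n * Real.log 2 then
    H365.rate ((1 - Q.G) * Q.p) (es i) / ((m : ℝ) * n) ^ Q.CK
  else 0

/-- the rates of the truncated entropy inequality -/
noncomputable def lamP (Q : Prm) (S : Finset ι) (ℓ : ι → ℝ) (i : ι) : ℝ :=
  if i ∈ S then Real.exp (-(Q.γ * ℓ i)) else 0

/-- the costs of the pins -/
noncomputable def costP (Q : Prm) (ℓ : ι → ℝ) (A : Finset ι) : ℝ := Q.a0 + Q.γ * len ℓ A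

/-- low degree moments under the pinned law against the uniform law (438 `dcl`);
`len` of all sites involved at most `Λ`; the free sites are ordinary -/
def DCl (S : Finset ι) (u : ∀ i, V i → ℝ) (mu : (∀ i, V i) → ℝ) (ℓ : ι → ℝ) (Λ D : ℝ) : Prop :=
  ∀ A U : Finset ι, U ⊆ S → Disjoint A U → ∀ b : ∀ i, V i,
    ∀ T : Finset ι → (∀ i, V i) → ℝ,
    (∀ E, DependsOn (T E) (E : Set ι)) → (∀ E, ∀ j ∈ E, H685.Deg u j (T E)) →
    ∀ e k : ℕ, 1 ≤ k → (∀ E ⊆ U, E.card = e → len ℓ A + 2 * k * len ℓ E ≤ Λ) →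
      ∑ x, H956.pin u mu A b x * (∑ E ∈ U.powersetCard e, T E x) ^ (2 * k) ≤
        Real.exp D * ∑ x, pw u x * (∑ E ∈ U.powersetCard e, T E x) ^ (2 * k)

/-- **The hypotheses on one law.** -/
structure PLaw (Q : Prm) (S : Finset ι) (ℓ es : ι → ℝ) (lam u : ∀ i, V i → ℝ)
    (mu : (∀ i, V i) → ℝ) : Prop where
  /-- `lam` is a reference of the law -/
  ref : Ref lam mu
  /-- uniform weights -/
  usum : ∀ i, ∑ a, u i a = 1
  u1 : ∀ i a, u i a = Real.exp (-ℓ i)
  /-- `lam` against uniform -/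
  up : ∀ i a, lam i a ≤ Real.exp (Q.γ * ℓ i) * u i a
  lo : ∀ i a, lam i a = 0 ∨ Real.exp (-(Q.γ * ℓ i)) * u i a ≤ lam i a
  out : ∀ i, i ∉ S → lam i = u i
  /-- density of all marginals -/
  sup : ∀ A, len ℓ A ≤ Q.Λ → ∀ x, marg mu A x ≤ Real.exp (costP Q ℓ A) * lw lam A x
  /-- **pins, truncated entropy inequality** (104's form, absolute threshold: cells of mass at
  least `exp (-c0 P)`); from (QL) with a general competitor, 858's `eic_push` -/
  eic : H104.EIc lam mu (fun A => len ℓ A ≤ Q.Λ) (lamP Q S ℓ) (costP Q ℓ)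
    (Real.exp (-(Q.c0 * Real.exp Q.p)))
  /-- **the multi-coordinate entropy inequalities** -/
  mei : ∀ m n : ℕ, 1 ≤ m → (m : ℝ) ≤ Real.exp (2 * Q.d1 * Q.p) → 1 ≤ n →
    n * Real.log 2 ≤ Q.C1 * Q.p + 1 →
    MEIK (tF Q S es m n) (1 / (704 * LF m n)) (1 / LF m n) (Real.exp (6 * LF m n)) mu
  /-- low degree moments of the pinned laws -/
  dc : DCl S u mu ℓ Q.Λ (Q.cD * Real.exp Q.p)
  /-- the level one energy of `lam` against uniform -/
  lev1 : ∀ x : ℝ, Q.p / 2 ≤ x →
    ∑ i ∈ S with x ≤ es i ∧ es i ≤ x + 1, H565.rho lam u i ≤ Real.exp ((1 + Q.γ) * Q.p)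

/-- **The hypotheses on one pair of laws and the kernels.** `lo` = the low sites (the state side
takes: the prime of the site is at most `P ^ (2 - kap)`), `lam2` = reference of the kernels
(`lam` on the low sites, uniform elsewhere). -/
structure PPair (Q : Prm) (S : Finset ι) (ℓ es : ι → ℝ) (lo : ι → Prop)
    (lam lam2 u : ∀ i, V i → ℝ)
    (K : ∀ i, V i → V i → ℝ) (c : ι → ℝ) (v v' : ∀ i, V i → ℝ) (s : ∀ i, V i → V i → ℝ)
    (rho e : ι → ℝ) (mu mu' : (∀ i, V i) → ℝ) : Prop where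
  law : PLaw Q S ℓ es lam u mu
  law' : PLaw Q S ℓ es lam u mu'
  ob : H365.OB lam2 K c v v' s rho e
  nn : ∀ i a, 0 ≤ lam2 i a
  one : ∀ i, ∑ a, lam2 i a = 1
  low : ∀ i, lo i → lam2 i = lam i
  high : ∀ i, ¬ lo i → lam2 i = u i
  lo1 : ∀ i, lo i → i ∈ S ∧ es i ≤ (2 - Q.kap) * Q.p + Real.log 2
  lo2 : ∀ i ∈ S, ¬ lo i → (2 - Q.kap) * Q.p < es i
  rho1 : ∀ i ∈ S, rho i ≤ Real.exp (-(1 / 2) * es i + Q.γ * es i)
  e1 : ∀ i ∈ S, e i ≤ Real.exp (-es i + Q.γ * es i)

/-- the frame of the scales -/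
structure Scl {J : Type*} (Q : Prm) (K0 : ℕ) (S : Finset ι) (ℓ es : ι → ℝ) (sc : ι → J)
    (sn : J → ℕ) (ell : J → ℝ) : Prop where
  inj : Function.Injective sn
  ell1 : ∀ j, ell j = sn j * Real.log 2
  K0 : ∀ j, K0 ≤ sn j
  top : ∀ j, ell j ≤ Q.C1 * Q.p + 1
  es1 : ∀ i ∈ S, es i = ell (sc i)
  lo : ∀ i ∈ S, es i - Real.log 2 ≤ ℓ i
  up : ∀ i ∈ S, ℓ i ≤ es i
  card : ∀ x : ℝ, ((S.filter fun i => es i = x).card : ℝ) ≤ Real.exp x

end Vale.Agent.P042.H92
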