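import Vale.Agent.P042.H92.PDef
import Vale.Agent.P042.H284.Oo
import Vale.Agent.P042.H384.Bd

/-!
# P042, power regime: the named propositions of the local part

`BTSof` : the typed bounds of the cumulants of the marginal laws of `PPair` (block F.B);
`BOof`  : the same with one super-modulus, in the form of 727's `star`.
-/

set_option autoImplicit false

namespace Vale.Agent.P042.H92

open Finset Vale.Agent.P042.H284 Vale.Agent.P042.H384

/-- the quantifiers over the constants of block F.B: a statement about all parameter sets `Q` in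
the regime.  `g` = exponent of the bounds of order one, `32 kap ≤ g`. -/
def Regime (stm : (c1 c2 g : ℝ) → (A : ℕ) → (K0 : ℕ) → Prm → Prop) (C1 : ℝ) : Prop :=
  ∃ CK0 : ℕ, ∀ CK : ℕ, CK0 ≤ CK → ∃ G0 : ℝ, 0 < G0 ∧ ∀ G : ℝ, 0 < G → G ≤ G0 →
  ∃ (c1 c2 : ℝ) (A : ℕ), 0 < c1 ∧ c1 < c2 ∧
  ∃ g0 : ℝ, 0 < g0 ∧ ∃ k0 : ℝ, 0 < k0 ∧ ∀ g kap γ d1 : ℝ, 0 < g → g ≤ g0 → 0 < kap →
    32 * kap ≤ g → 0 < γ → γ ≤ k0 * kap → 0 < d1 → d1 ≤ k0 →
  ∀ a0 : ℝ, 0 ≤ a0 → ∃ K0 : ℕ, ∀ θ c0 cD : ℝ, 0 < θ → 0 < c0 → 0 < cD → cD ≤ k0 * (γ * θ) →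
  ∃ p0 : ℝ, ∀ p : ℝ, p0 ≤ p →
    stm c1 c2 g A K0 ⟨p, C1, γ, a0, θ, c0, cD, kap, d1, G, CK⟩

/-- **F.B, ordinary sites.**  For every order and every top scale the bounds `BTS` of 284. -/
def BTSof : Prop := ∀ C1 : ℝ, 4 ≤ C1 → Regime (fun c1 c2 g A K0 Q =>
  ∀ (J : Type) [Fintype J] [DecidableEq J] (ι : Type) [Fintype ι] [DecidableEq ι] (V : ι → Type)
    [∀ i, Fintype (V i)] [∀ i, DecidableEq (V i)] (ℓ es : ι → ℝ) (sc : ι → J) (sn : J → ℕ)
    (ell : J → ℝ) (lo : ι → Prop) (lam lam2 u : ∀ i, V i → ℝ) (K : ∀ i, V i → V i → ℝ)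
    (c : ι → ℝ) (v v' : ∀ i, V i → ℝ) (s : ∀ i, V i → V i → ℝ) (rho e : ι → ℝ)
    (mu mu' : (∀ i, V i) → ℝ),
    Scl Q K0 univ ℓ es sc sn ell →
    PPair Q univ ℓ es lo lam lam2 u K c v v' s rho e mu mu' →
    ∀ b : ℕ, 1 ≤ b → (b : ℝ) ≤ Real.exp (Q.d1 * Q.p) → ∀ j : J,
    ∃ (p : ι → Prop) (_ : DecidablePred p) (σ : ℝ)
      (VV : J → Finset (Σ i : {i // p i}, Option (V i))) (R E : {i // p i} → ℝ) (N : J → J → ℝ),
      BTS p lam2 rho e mu mu' sc ell g c1 c2 A b j σ VV R E N) C1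

/-- **F.B, with one super-modulus** at the site `none` (`exp (ℓ none)` its size). The kernel at
`none` is polynomially bounded. Output = (E*), (D*) of 727's star (up to the scalar `M0`). -/
def BOof : Prop := ∀ C1 : ℝ, 4 ≤ C1 → ∀ k : ℕ, Regime (fun c1 _ _ A K0 Q =>
  ∀ (J : Type) [Fintype J] [DecidableEq J] (ι : Type) [Fintype ι] [DecidableEq ι]
    (V : Option ι → Type) [∀ i, Fintype (V i)] [∀ i, DecidableEq (V i)] (ℓ es : Option ι → ℝ)
    (sc : ι → J) (sn : J → ℕ) (ell : J → ℝ) (lo : Option ι → Prop) (lam lam2 u : ∀ i, V i → ℝ)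
    (K : ∀ i, V i → V i → ℝ) (c : Option ι → ℝ) (v v' : ∀ i, V i → ℝ)
    (s : ∀ i, V i → V i → ℝ) (rho e : Option ι → ℝ) (mu mu' : (∀ i, V i) → ℝ),
    Scl Q K0 univ (fun i => ℓ (some i)) (fun i => es (some i)) sc sn ell →
    PPair Q (univ.erase none) ℓ es lo lam lam2 u K c v v' s rho e mu mu' →
    PPair Q univ (fun i => ℓ (some i)) (fun i => es (some i)) (fun i => lo (some i))
      (fun i => lam (some i)) (fun i => lam2 (some i)) (fun i => u (some i))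
      (fun i => K (some i)) (fun i => c (some i)) (fun i => v (some i)) (fun i => v' (some i))
      (fun i => s (some i)) (fun i => rho (some i)) (fun i => e (some i))
      (H461.push rs mu) (H461.push rs mu') →
    Q.p ≤ ℓ none → ℓ none ≤ Real.exp (2 * Q.d1 * Q.p) →
    rho none ≤ Real.exp (k * ℓ none) → e none ≤ Real.exp (k * ℓ none) →
    ∃ W : (J →₀ ℕ) → ℝ,
      (∀ a : J →₀ ℕ, (a.degree : ℝ) + 1 ≤ Real.exp (Q.d1 * Q.p) →
        ∑ B ∈ (univ : Finset ι).powerset with tyi sc B = a,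
            FK K mu mu' (Finset.insertNone B) =
          ∑ x ∈ HasAntidiagonal.antidiagonal a, W x.1 *
            ∑ B ∈ (univ : Finset ι).powerset with tyi sc B = x.2,
              FK (fun i => K (some i)) (H461.push rs mu) (H461.push rs mu') B) ∧
      (∀ a : J →₀ ℕ, (a.degree : ℝ) + 1 ≤ Real.exp (Q.d1 * Q.p) →
        |W a| ≤ Real.exp (A * ℓ none + A * a.degree * Real.log (lf ell a) - c1 * lf ell a))) C1

end Vale.Agent.P042.H92
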