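import Vale.Agent.P042.H92.BTSof
import Vale.Agent.P042.H284.BtNum
import Vale.Agent.P042.H232.LawOf
import Vale.Agent.P042.H587.PHAll

/-!
# P042, power regime: `BTSof`
-/

set_option autoImplicit false
set_option linter.unusedSectionVars false

namespace Vale.Agent.P042.H92

open Finset Vale.Agent.P042.H284
open Vale.Agent.P042.H779.Ab.Ll (len)

section num

variable {c1 c2 g : ℝ} {K0 : ℕ} {Q : Prm}

theorem bnum_of (N : BtN c1 c2 g K0 Q) (hL : Q.C1 * Q.p + 1 ≤ Real.exp (2 * Q.d1 * Q.p))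
    {J : Type} {sn : J → ℕ} {ell : J → ℝ} (hell : ∀ j, ell j = sn j * Real.log 2)
    (hK : ∀ j, K0 ≤ sn j) :
    BNum Q (g / 16) (1 / (24 * Q.C1)) (etaN Q.C1) ⌊Real.exp (Q.d1 * Q.p)⌋₊ (3 * Q.CK) sn ell := by
  have hx : ∀ j, K0 * Real.log 2 ≤ ell j := fun j => by rw [hell]; exact N.kn (hK j)
  have hg := N.g0
  have hg1 := N.g1
  have hG1 := N.G1
  have hη := etaN_le N.C1
  have hk0 := N.kap0
  have hk1 := N.kap1
  have hγ0 := N.γ0
  have hγ1 := N.γ1
  have hp := N.p1
  have hC := N.C1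
  have ha := N.a0
  have hd := N.d0
  have e4 : ∀ x : ℝ, K0 * Real.log 2 ≤ x → ∀ y : ℝ, y ≤ (3 * Q.γ + Q.kap / 2) * x →
      4000 * Real.exp y ≤ Real.exp (g / 16 / 2 * x) := by
    intro x hx y hy
    refine le_trans ?_ (N.main hx hy)
    apply mul_le_mul_of_nonneg_right _ (Real.exp_pos _).le
    have h1 : 1 ≤ (Q.a0 + 1) ^ 2 := one_le_pow₀ (by linarith)
    have h2 : 1 ≤ Real.exp (2 * Q.a0) := Real.one_le_exp (by linarith)
    nlinarith
  exact {
    p1 := by linarith
    C10 := by linarith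
    γ0 := hγ0.le
    a00 := ha
    c00 := N.c0.le
    γ1 := by linarith
    kap1 := by linarith
    kapG := by linarith
    kh := by linarith
    h2 := by linarith
    h0 := by positivity
    csE := rfl
    num := N.numC 1 le_rfl
    ΛL := by
      have h1 := N.pb
      have h2 : 1 ≤ Real.exp (4 * Q.d1 * Q.p) := Real.one_le_exp (by positivity)
      unfold Prm.Λ
      have h3 : 0 ≤ Q.C1 * Q.p := by positivity
      nlinarith
    Ld := hL
    b3 := by
      have h1 := N.ord3 (b := ⌊Real.exp (Q.d1 * Q.p)⌋₊) (Nat.floor_le (Real.exp_pos _).le)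
      omega
    xa := fun j => by
      have h1 := e4 _ (hx j) 0 (by
        have := N.x500 (hx j)
        have h5 : 0 ≤ Q.γ * ell j := mul_nonneg hγ0.le (by linarith)
        have h6 : 0 ≤ Q.kap * ell j := mul_nonneg hk0.le (by linarith)
        linarith)
      rw [Real.exp_zero] at h1
      linarith
    xb := fun j => by
      have hx5 := N.x500 (hx j)
      have h1 := N.main (hx j) (y := 0) (by
        have h5 : 0 ≤ Q.γ * ell j := mul_nonneg hγ0.le (by linarith)
        have h6 : 0 ≤ Q.kap * ell j := mul_nonneg hk0.le (by linarith)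
        linarith)
      rw [Real.exp_zero, mul_one] at h1
      have h2 : Real.exp (g / 16 / 2 * ell j) ≤ Real.exp (ell j / 4) := by
        apply Real.exp_le_exp.2
        nlinarith
      refine le_trans ?_ (h1.trans h2)
      have h3 : Real.exp (2 * Q.a0) = Real.exp Q.a0 * Real.exp Q.a0 := by
        rw [← Real.exp_add]; congr 1; ring
      have h4 : 1 ≤ Real.exp Q.a0 := Real.one_le_exp ha
      rw [h3]
      have h5 : 4 * Q.a0 ≤ 4000 * (Q.a0 + 1) ^ 2 := by nlinarith
      have h6 : Real.exp Q.a0 ≤ Real.exp Q.a0 * Real.exp Q.a0 := by nlinarith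
      calc 4 * Q.a0 * Real.exp Q.a0 ≤ 4000 * (Q.a0 + 1) ^ 2 * (Real.exp Q.a0 * Real.exp Q.a0) :=
            mul_le_mul h5 h6 (Real.exp_pos _).le (by positivity)
        _ = _ := by ring
    xc := fun j => N.mp' (hx j) le_rfl
    xd := fun j => by
      have hx5 := N.x500 (hx j)
      have h1 := e4 _ (hx j) (Q.γ * ell j) (by
        have h5 : 0 ≤ Q.γ * ell j := mul_nonneg hγ0.le (by linarith)
        have h6 : 0 ≤ Q.kap * ell j := mul_nonneg hk0.le (by linarith)
        linarith)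
      have h2 : Real.exp (Real.log 2 + Q.γ * ell j) ≤ Real.exp (g / 16 / 2 * ell j) := by
        rw [Real.exp_add, Real.exp_log (by norm_num)]
        have := Real.exp_pos (Q.γ * ell j)
        linarith
      exact Real.exp_le_exp.1 h2
    Kf12 := fun b j _ _ => by
      have h1 := N.kf12 (b := b) (hK j)
      unfold KfN at h1
      rw [hell]
      push_cast at h1
      exact h1
    KfA := fun b s j hb _ hs => by
      have h1 := N.kfA hb (hK s) hs
      unfold KfN at h1
      rw [hell]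
      push_cast at h1
      exact h1 }

theorem lnum_of (N : BtN c1 c2 g K0 Q) :
    H232.LNum Q K0 (g / 16) ⌊Real.exp (Q.d1 * Q.p)⌋₊ := by
  have hg := N.g0
  have hg1 := N.g1
  have hG1 := N.G1
  have hη := etaN_le N.C1
  have hγ0 := N.γ0
  have hγ1 := N.γ1
  have hp := N.p1
  have hC := N.C1
  have ha := N.a0
  have hd := N.d0
  have hb0 : ((⌊Real.exp (Q.d1 * Q.p)⌋₊ : ℕ) : ℝ) ≤ Real.exp (Q.d1 * Q.p) :=
    Nat.floor_le (Real.exp_pos _).le
  have hCp : 0 ≤ Q.C1 * Q.p := by positivity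
  exact {
    γ0 := hγ0
    γh := by linarith
    h1 := by linarith
    a00 := ha
    p0 := by linarith
    K01 := by have := N.k1000; omega
    a1 := fun x hx => by
      have := N.xa x hx
      linarith
    kf := fun b n hb hn => by
      have h1 := N.kf1 (b := b) hn
      unfold KfN at h1
      push_cast at h1
      exact h1
    lf1 := fun b n hb hn => by
      have h1 := N.lamF (b := b) hn
      unfold H365.LamF at h1
      refine le_trans (le_of_eq ?_) h1
      ring
    lf2 := fun b n hb hn => N.lf_ge hn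
    b1 := by have := N.ord2; linarith
    b2 := by
      have h1 := N.pb
      unfold Prm.Λ
      have h2 : ((⌊Real.exp (Q.d1 * Q.p)⌋₊ : ℕ) : ℝ) + 1 ≤ Real.exp (4 * Q.d1 * Q.p) := by
        have h3 := N.ord2
        have h4 : Real.exp (2 * Q.d1 * Q.p) ≤ Real.exp (4 * Q.d1 * Q.p) := by
          apply Real.exp_le_exp.2
          have := mul_pos hd (show 0 < Q.p by linarith)
          linarith
        linarith
      calc _ ≤ Real.exp (4 * Q.d1 * Q.p) * (Q.C1 * Q.p + 1) :=
            mul_le_mul_of_nonneg_right h2 (by linarith)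
        _ ≤ Real.exp (4 * Q.d1 * Q.p) * (Q.C1 * Q.p + 2) :=
            mul_le_mul_of_nonneg_left (by linarith) (Real.exp_pos _).le
        _ ≤ _ := h1
    L1 := N.pc
    ch := by
      refine le_trans ?_ N.pe
      have h1 : 1 ≤ Real.exp ((1 - Q.G) * Q.p) := Real.one_le_exp (mul_nonneg (by linarith)
        (by linarith))
      have h2 : 6 * Real.exp ((1 - Q.G) * Q.p) + 2 ≤ 8 * Real.exp ((1 - Q.G) * Q.p) := by linarith
      have h3 : (Q.C1 * Q.p + 1) ^ 2 ≤ (Q.C1 * Q.p + 2) ^ 2 :=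
        pow_le_pow_left₀ (by linarith) (by linarith) 2
      have h4 : (Q.C1 * Q.p + 2) ^ 2 ≤ (Q.C1 * Q.p + 2) ^ 3 :=
        pow_le_pow_right₀ (by linarith) (by norm_num)
      calc _ ≤ (Q.C1 * Q.p + 2) ^ 3 * (8 * Real.exp ((1 - Q.G) * Q.p)) :=
            mul_le_mul (h3.trans h4) h2 (by positivity) (by positivity)
        _ ≤ _ := by
            have h5 : 0 ≤ (Q.C1 * Q.p + 2) ^ 3 * Real.exp ((1 - Q.G) * Q.p) := by positivity
            linarith
    th := by
      have h1 := N.pd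
      have h2 := Real.exp_pos ((1 - Q.G / 2) * Q.p)
      nlinarith }

end num

/-- the statement of `ph_plaw` at one parameter set, all sites ordinary -/
def PHst (Q : Prm) : Prop :=
  Q.C1 * Q.p + 1 ≤ Real.exp (2 * Q.d1 * Q.p) ∧
  ∀ (ι : Type) [Fintype ι] [DecidableEq ι] (V : ι → Type) [∀ i, Fintype (V i)]
    [∀ i, DecidableEq (V i)] (ℓ es : ι → ℝ) (lam u : ∀ i, V i → ℝ) (mu : (∀ i, V i) → ℝ),
    PLaw Q univ ℓ es lam u mu → (∀ i, ℓ i ≤ Real.exp (2 * Q.d1 * Q.p)) →
    (∀ i, ℓ i ≤ es i ∧ es i ≤ Q.C1 * Q.p + 1) →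
    ((univ : Finset ι).card : ℝ) ≤ Real.exp (Q.C1 * Q.p + 3) →
    ∀ Hi ⊆ (univ : Finset ι), (∀ i ∈ Hi, Q.p / 2 ≤ es i) →
    H161.PH lam (H742.gr lam mu) Hi
      (fun i => (2 * Real.exp 3 * Real.exp Q.a0) ^ 2 * Real.exp (2 * (Q.γ * ℓ i)))
      (Real.exp ((1 - 1 / (24 * Q.C1)) * Q.p)) ⌊Real.exp (3 * Q.d1 * Q.p)⌋₊

theorem regP_ph {C1 : ℝ} (hC1 : 4 ≤ C1) : RegP (fun _ Q => PHst Q) C1 := by
  obtain ⟨k0, hk0, H⟩ := H587.ph_plaw C1 hC1
  refine ⟨k0, hk0, fun γ d1 h1 h2 h3 h4 a0 ha0 => ⟨0, fun K0 _ θ c0 cD h5 h6 h7 h8 => ?_⟩⟩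
  obtain ⟨p0, H⟩ := H γ d1 h1 h2 h3 h4 a0 ha0 θ c0 cD h5 h6 h7 h8
  obtain ⟨p1, hp1⟩ := Filter.eventually_atTop.1
    (ev_exp (a := 0) (b := 2 * d1) (by positivity) (C1 + 1) 1)
  refine ⟨max p0 (max p1 1), fun p hp kap G CK => ⟨?_, ?_⟩⟩
  · have h9 := hp1 p (((le_max_left _ _).trans (le_max_right _ _)).trans hp)
    have h10 : 1 ≤ p := ((le_max_right _ _).trans (le_max_right _ _)).trans hp
    rw [zero_mul, Real.exp_zero, mul_one, pow_one] at h9
    show C1 * p + 1 ≤ Real.exp (2 * d1 * p)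
    linarith
  · intro ι _ _ V _ _ ℓ es lam u mu hL hl hes hc Hi hHi hH
    exact H p ((le_max_left _ _).trans hp) kap G CK ι V univ ℓ es lam u mu hL
      (by simp) hl (fun i _ => hes i) hc Hi hHi hH

/-- **F.B, ordinary sites: the bounds of the typed cumulants of the marginal laws.** -/
theorem btsof : BTSof := by
  intro C1 hC1
  refine Regime.mono ?_ (regime_bt hC1 (fun CK => 3 * CK + 14) (regP_ph hC1))
  rintro c1 c2 g A K0 Q hQ ⟨N, hA, hL, ph⟩ J _ _ ι _ _ V _ _ ℓ es sc sn ell lo lam lam2 u K c v v'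
    s rho e mu mu' S H b hb hb0 j
  subst hA
  have NL := N.numL S.inj S.ell1 S.K0
  have hp := N.p1
  have hC := N.C1
  have hes : ∀ i, ℓ i ≤ es i ∧ es i ≤ Q.C1 * Q.p + 1 := fun i =>
    ⟨S.up i (mem_univ i), by rw [S.es1 i (mem_univ i)]; exact S.top _⟩
  have hcard : ((univ : Finset ι).card : ℝ) ≤ Real.exp (Q.C1 * Q.p + 3) := by
    refine (H386.scl_card S (by positivity)).trans (Real.exp_le_exp.2 (by linarith))
  have hb0' := N.ord hb0
  have hk := N.numG
  exact bts_fix H S (bnum_of N hL S.ell1 S.K0) NL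
    (H232.lawH_of_plaw (lnum_of N) S H.law NL) (H232.lawH_of_plaw (lnum_of N) S H.law' NL)
    (fun nu hnu => ph ι V ℓ es lam u nu hnu (fun i => (hes i).1.trans ((hes i).2.trans hL)) hes
      hcard) N.numG (by have := N.hc; have := N.g0; linarith) (by have := N.hc2; have := N.g0; linarith)
    hb hb0' j

end Vale.Agent.P042.H92
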