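import Vale.Agent.P042.H92.PUse
import Vale.Agent.P042.H92.PLocal
import Vale.Agent.P042.H365.BTy
import Vale.Agent.P042.H386.PHAll

/-!
# P042, power regime: `BTSof`, composition
-/

set_option autoImplicit false
set_option linter.unusedSectionVars false

namespace Vale.Agent.P042.H92

open Finset Vale.Agent.P042.H461 Vale.Agent.P042.H742 Vale.Agent.P042.H232
open Vale.Agent.P042.H779 (marg m1 phi IsProb)
open Vale.Agent.P042.H779.Ab (Ref pw)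
open Vale.Agent.P042.H779.Ab.Ll (len)
open Vale.Agent.P042.H284 Vale.Agent.P042.H384
open Vale.Agent.P042.H365 (LawH NumL NumG RefH bts_of_law2)
open Vale.Agent.P042.H161 (NumC PH)

/-- The numbers of `bts_fix`. -/
structure BNum (Q : Prm) (h cs η : ℝ) (b0 : ℕ) (A1 : ℕ) {J : Type} (sn : J → ℕ) (ell : J → ℝ) :
    Prop where
  p1 : 1 ≤ Q.p
  C10 : 0 ≤ Q.C1
  γ0 : 0 ≤ Q.γ
  a00 : 0 ≤ Q.a0
  c00 : 0 ≤ Q.c0
  γ1 : 12 * Q.γ ≤ 1
  kap1 : Q.kap ≤ 1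
  kapG : Q.kap ≤ 4 * Q.G
  kh : 2 * Q.γ + Q.kap ≤ h
  h2 : 2 * Q.γ ≤ h
  h0 : 0 ≤ h
  csE : cs = 1 / (24 * Q.C1)
  num : NumC Q.p Q.G h 1 (Q.C1 + 1) cs η
  ΛL : Q.C1 * Q.p + 1 ≤ Q.Λ
  Ld : Q.C1 * Q.p + 1 ≤ Real.exp (2 * Q.d1 * Q.p)
  b3 : b0 + 1 ≤ ⌊Real.exp (3 * Q.d1 * Q.p)⌋₊
  xa : ∀ j, 3 ≤ Real.exp (h / 2 * ell j)
  xb : ∀ j, 4 * Q.a0 * Real.exp Q.a0 ≤ Real.exp (ell j / 4)
  xc : ∀ j, (2 * Real.exp 3 * Real.exp Q.a0) ^ 2 * Real.exp (2 * (Q.γ * ell j)) ≤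
    Real.exp (h / 2 * ell j)
  xd : ∀ j, Real.log 2 + Q.γ * ell j ≤ h / 2 * ell j
  Kf12 : ∀ b j, 1 ≤ b → b ≤ b0 → 12 * ell j ≤ (((b : ℝ) + 1) * sn j) ^ Q.CK
  KfA : ∀ (b : ℕ) s j, 1 ≤ b → b ≤ b0 → sn s ≤ sn j →
    (((b : ℝ) + 1) * sn s) ^ Q.CK ≤ ((b : ℝ) * ell j) ^ A1

variable {J : Type} [Fintype J] [DecidableEq J] {ι : Type} [Fintype ι] [DecidableEq ι]
  {V : ι → Type} [∀ i, Fintype (V i)] [∀ i, DecidableEq (V i)] {Q : Prm} {K0 : ℕ}
  {ℓ es : ι → ℝ} {sc : ι → J} {sn : J → ℕ} {ell : J → ℝ} {lo : ι → Prop}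
  {lam lam2 u : ∀ i, V i → ℝ} {K : ∀ i, V i → V i → ℝ} {c : ι → ℝ} {v v' : ∀ i, V i → ℝ}
  {s : ∀ i, V i → V i → ℝ} {rho e : ι → ℝ} {mu mu' nu : (∀ i, V i) → ℝ}
  {h g c1 c2 cs η : ℝ} {b0 A1 : ℕ}

/-- **365's `RefH` from `PLaw`, `PPair` and Theorem H.** -/
theorem refH_of (H : PPair Q univ ℓ es lo lam lam2 u K c v v' s rho e mu mu')
    (L : PLaw Q univ ℓ es lam u nu) (C : Scl Q K0 univ ℓ es sc sn ell)
    (B : BNum Q h cs η b0 A1 sn ell) (hell : ∀ j, 0 ≤ ell j)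
    (ph : ∀ Hi ⊆ (univ : Finset ι), (∀ i ∈ Hi, Q.p / 2 ≤ es i) →
      PH lam (gr lam nu) Hi
        (fun i => (2 * Real.exp 3 * Real.exp Q.a0) ^ 2 * Real.exp (2 * (Q.γ * ℓ i)))
        (Real.exp ((1 - 1 / (24 * Q.C1)) * Q.p)) ⌊Real.exp (3 * Q.d1 * Q.p)⌋₊) :
    RefH lam lam2 nu sc ell b0 Q.p Q.G h (Q.C1 + 1) cs η
      (Real.exp ((1 - 1 / (24 * Q.C1)) * Q.p)) (fun b j => (((b : ℝ) + 1) * sn j) ^ Q.CK)
      (fun i => Real.exp (Q.γ * ℓ i))
      (fun i => (2 * Real.exp 3 * Real.exp Q.a0) ^ 2 * Real.exp (2 * (Q.γ * ℓ i))) where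
  pair := by
    have h1 := H.refPair B.γ0
    exact { n1 := h1.n1, s1 := h1.s1, n2 := h1.n2, s2 := h1.s2, rr1 := h1.rr1, le := h1.le
            ac := L.ref.ac, m0 := L.ref.prob.1, m1' := L.ref.prob.2 }
  rr1 i := by
    apply Real.exp_le_exp.2
    have h1 : ℓ i ≤ ell (sc i) := by
      rw [← C.es1 i (Finset.mem_univ i)]; exact C.up i (Finset.mem_univ i)
    have h2 := mul_le_mul_of_nonneg_left h1 B.γ0
    have h3 := B.h2
    have h4 := hell (sc i)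
    nlinarith
  low i hi := by
    apply H.low
    by_contra hc
    have h1 := H.lo2 i (Finset.mem_univ i) hc
    rw [C.es1 i (Finset.mem_univ i)] at h1
    have h2 := B.kapG
    have h3 := B.p1
    nlinarith
  num := B.num
  top j := (C.top j).trans (by have := B.p1; linarith)
  Kf12 b j h1 h2 := B.Kf12 b j h1 h2
  Gn0 := Real.exp_pos _
  Gn1 := by rw [B.csE]
  M1 i := by
    have h1 := L.l0 i
    have h2 : 1 ≤ Real.exp (2 * (Q.γ * ℓ i)) :=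
      Real.one_le_exp (by have := mul_nonneg B.γ0 h1; linarith)
    have h3 : 1 ≤ Real.exp 3 := Real.one_le_exp (by norm_num)
    have h4 : 1 ≤ Real.exp Q.a0 := Real.one_le_exp B.a00
    have h5 : 1 ≤ 2 * Real.exp 3 * Real.exp Q.a0 := by nlinarith
    have h6 : 1 ≤ (2 * Real.exp 3 * Real.exp Q.a0) ^ 2 := one_le_pow₀ h5
    nlinarith
  M2 i := by
    refine le_trans ?_ (B.xc (sc i))
    apply mul_le_mul_of_nonneg_left _ (by positivity)
    apply Real.exp_le_exp.2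
    have h1 : ℓ i ≤ ell (sc i) := by
      rw [← C.es1 i (Finset.mem_univ i)]; exact C.up i (Finset.mem_univ i)
    have h2 := mul_le_mul_of_nonneg_left h1 B.γ0
    linarith
  ph := by
    have h1 := ph (univ.filter fun i => Q.p ≤ ell (sc i)) (Finset.subset_univ _) (fun i hi => by
      rw [C.es1 i (Finset.mem_univ i)]
      have := (Finset.mem_filter.1 hi).2
      have := B.p1
      linarith)
    intro A e hA w
    exact h1 A e (hA.trans B.b3) w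
  lev := L.lev C B.γ0 B.γ1 B.a00 (fun j => (C.top j).trans B.ΛL)
    (le_trans (by have := mul_nonneg B.C10 (zero_le_one.trans B.p1); linarith) B.ΛL) B.c00 B.h2
    B.h0 hell B.xa B.xb
  lev2 l := by
    refine le_trans (Finset.sum_le_sum fun i _ => ?_)
      (H.lev2 L C B.γ0 B.γ1 B.a00 (fun j => (C.top j).trans B.ΛL)
        (le_trans (by have := mul_nonneg B.C10 (zero_le_one.trans B.p1); linarith) B.ΛL) B.c00
        B.kap1 B.kh B.h0 (zero_le_one.trans B.p1) hell B.xa B.xb l)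
    apply add_le_add _ le_rfl
    apply mul_le_mul_of_nonneg_right _
      (Finset.sum_nonneg fun a _ => mul_nonneg (H.nn i a) (sq_nonneg _))
    unfold H365.RR
    apply mul_le_mul_of_nonneg_left _ zero_le_one
    apply Real.exp_le_exp.2
    have := mul_nonneg B.h0 (hell (sc i))
    linarith

/-- **`BTS` at fixed constants.** -/
theorem bts_fix (H : PPair Q univ ℓ es lo lam lam2 u K c v v' s rho e mu mu')
    (C : Scl Q K0 univ ℓ es sc sn ell) (B : BNum Q h cs η b0 A1 sn ell)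
    {lm aa : J → ℝ} {cc : J → ι → ℝ} {ok : J → Finset ι → Prop} {A0 : ℝ}
    (N : NumL sn ell Q.p Q.G h A0)
    (LH : LawH lam mu sc sn ell b0 Q.p Q.G h A0 (fun b j => (((b : ℝ) + 1) * sn j) ^ Q.CK)
      lm aa cc ok)
    (LH' : LawH lam mu' sc sn ell b0 Q.p Q.G h A0 (fun b j => (((b : ℝ) + 1) * sn j) ^ Q.CK)
      lm aa cc ok)
    (ph : ∀ nu, PLaw Q univ ℓ es lam u nu → ∀ Hi ⊆ (univ : Finset ι),
      (∀ i ∈ Hi, Q.p / 2 ≤ es i) → PH lam (gr lam nu) Hi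
        (fun i => (2 * Real.exp 3 * Real.exp Q.a0) ^ 2 * Real.exp (2 * (Q.γ * ℓ i)))
        (Real.exp ((1 - 1 / (24 * Q.C1)) * Q.p)) ⌊Real.exp (3 * Q.d1 * Q.p)⌋₊)
    (Ng : NumG Q.G h g c1 c2) (hc1 : c1 + g ≤ η / 8 - h) (hc2 : c2 ≤ η / 8 - h)
    {b : ℕ} (hb : 1 ≤ b) (hb0 : b ≤ b0) (j : J) :
    ∃ (q : ι → Prop) (_ : DecidablePred q) (σ : ℝ)
      (VV : J → Finset (Σ i : {i // q i}, Option (V i))) (R E : {i // q i} → ℝ) (NN : J → J → ℝ),
      BTS q lam2 rho e mu mu' sc ell g c1 c2 (A1 + 14) b j σ VV R E NN := by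
  have hell : ∀ j, 0 ≤ ell j := fun j => by linarith [N.ell2 j]
  refine bts_of_law2 LH LH' N (refH_of H H.law C B hell (ph mu H.law))
    (refH_of H H.law' C B hell (ph mu' H.law')) Ng hc1 hc2
    (fun b s j h1 h2 h3 => B.KfA b s j h1 h2 h3) ?_ ?_ hb hb0 j
  · intro i
    have h1 := H.rho1 i (Finset.mem_univ i)
    rw [C.es1 i (Finset.mem_univ i)] at h1
    have h2 := B.xd (sc i)
    calc 2 * rho i ≤ Real.exp (Real.log 2) *
          Real.exp (-(1 / 2) * ell (sc i) + Q.γ * ell (sc i)) := by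
          rw [Real.exp_log (by norm_num)]; linarith
      _ = Real.exp (Real.log 2 + (-(1 / 2) * ell (sc i) + Q.γ * ell (sc i))) :=
          (Real.exp_add _ _).symm
      _ ≤ _ := Real.exp_le_exp.2 (by linarith)
  · intro i
    have h1 := H.e1 i (Finset.mem_univ i)
    rw [C.es1 i (Finset.mem_univ i)] at h1
    have h2 := B.xd (sc i)
    have h3 := mul_nonneg B.h0 (hell (sc i))
    calc 2 * e i ≤ Real.exp (Real.log 2) *
          Real.exp (-ell (sc i) + Q.γ * ell (sc i)) := by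
          rw [Real.exp_log (by norm_num)]; linarith
      _ = Real.exp (Real.log 2 + (-ell (sc i) + Q.γ * ell (sc i))) :=
          (Real.exp_add _ _).symm
      _ ≤ _ := Real.exp_le_exp.2 (by linarith)

end Vale.Agent.P042.H92
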