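import Vale.Agent.P042.H92.PDef
import Vale.Agent.P042.H422.RefC
import Vale.Agent.P042.H365.BTx

/-!
# P042, power regime: order one bounds from `PLaw` / `PPair`
-/

set_option autoImplicit false
set_option linter.unusedSectionVars false

namespace Vale.Agent.P042.H92

open Finset Vale.Agent.P042.H461 Vale.Agent.P042.H742 Vale.Agent.P042.H232
open Vale.Agent.P042.H779 (marg m1 phi IsProb)
open Vale.Agent.P042.H779.Ab (Ref pw)
open Vale.Agent.P042.H779.Ab.Ll (len)

variable {ι : Type*} [Fintype ι] [DecidableEq ι] {V : ι → Type*} [∀ i, Fintype (V i)]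
  [∀ i, DecidableEq (V i)] {Q : Prm} {S : Finset ι} {ℓ es : ι → ℝ} {lo : ι → Prop}
  {lam lam2 u : ∀ i, V i → ℝ} {mu mu' : (∀ i, V i) → ℝ}

theorem marg_sing (mu : (∀ i, V i) → ℝ) (i : ι) (x : ∀ i, V i) :
    marg mu {i} x = m1 mu i (x i) := by
  unfold marg m1
  refine Finset.sum_congr rfl fun y _ => ?_
  simp

theorem len_sing (i : ι) : len ℓ {i} = ℓ i := by
  unfold len
  simp

/-- the one-point densities -/
theorem g1_eq (hmu : ∑ x, mu x = 1) (lam : ∀ i, V i → ℝ) (i : ι) (a : V i) :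
    g1 lam mu i a = m1 mu i a / lam i a - 1 := by
  unfold g1 uh ug m1
  simp only [mul_sub, mul_one, Finset.sum_sub_distrib, hmu]
  congr 1
  rw [Finset.sum_div]
  refine Finset.sum_congr rfl fun x _ => ?_
  by_cases hx : x i = a
  · rw [if_pos hx, if_pos hx]; ring
  · rw [if_neg hx, if_neg hx]; ring

section one

variable (H : PLaw Q S ℓ es lam u mu)
include H

theorem PLaw.mu1 : ∑ x, mu x = 1 := H.ref.prob.2

theorem PLaw.ne : Nonempty (∀ i, V i) := by
  by_contra h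
  rw [not_nonempty_iff] at h
  have h1 := H.mu1
  rw [Finset.univ_eq_empty, Finset.sum_empty] at h1
  exact zero_ne_one h1

theorem PLaw.ne1 (i : ι) : Nonempty (V i) := H.ne.map fun x => x i

theorem PLaw.u0 (i : ι) (a : V i) : 0 < u i a := by
  rw [H.u1]; exact Real.exp_pos _

theorem PLaw.l0 (i : ι) : 0 ≤ ℓ i := by
  obtain ⟨a⟩ := H.ne1 i
  have h1 : u i a ≤ ∑ b, u i b :=
    Finset.single_le_sum (f := fun b => u i b) (fun b _ => (H.u0 i b).le) (Finset.mem_univ a)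
  rw [H.usum, H.u1] at h1
  have h2 := Real.exp_le_one_iff.1 h1
  linarith

/-- one-point masses -/
theorem PLaw.m1_le {i : ι} (hi : ℓ i ≤ Q.Λ) (a : V i) :
    m1 mu i a ≤ Real.exp (Q.a0 + Q.γ * ℓ i) * lam i a := by
  obtain ⟨x0⟩ := H.ne
  have h1 := H.sup {i} (by rw [len_sing]; exact hi) (Function.update x0 i a)
  rw [marg_sing, Function.update_self] at h1
  unfold costP at h1
  rw [len_sing] at h1
  refine h1.trans (le_of_eq ?_)
  congr 1
  unfold lw
  rw [Finset.prod_singleton, Function.update_self]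

/-- **the relative entropies of the one-point laws** -/
theorem PLaw.kl (hΛ : 0 ≤ Q.Λ) (hc : 0 ≤ Q.c0) :
    ∑ i, lamP Q S ℓ i * ∑ b, lam i b * phi (m1 mu i b / lam i b) ≤ Q.a0 := by
  obtain ⟨x0⟩ := H.ne
  have hp := H.ref.prob
  have hd1 : Real.exp (-(Q.c0 * Real.exp Q.p)) ≤ 1 := by
    apply Real.exp_le_one_iff.2
    have := mul_nonneg hc (Real.exp_pos Q.p).le
    linarith
  have hd0 := Real.exp_pos (-(Q.c0 * Real.exp Q.p))
  have hce : Vale.Agent.P042.H779.Ab.ce mu ∅ (fun _ => (1 : ℝ)) x0 = 1 := by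
    unfold Vale.Agent.P042.H779.Ab.ce
    rw [Vale.Agent.P042.H779.marg_empty hp]
    simp [H.mu1]
  have h1 := H.eic ∅ (by unfold len; simpa using hΛ) x0
    (by rw [Vale.Agent.P042.H779.marg_empty hp]; exact hd1) (fun _ => 1) (fun _ => zero_le_one)
    (fun _ => by rw [le_div_iff₀ hd0]; linarith) hce
  have h2 : ∀ i b, Vale.Agent.P042.H482.mi mu ∅ (fun _ => (1 : ℝ)) i x0 b = m1 mu i b := by
    intro i b
    unfold Vale.Agent.P042.H482.mi Vale.Agent.P042.H779.Ab.ce m1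
    rw [Vale.Agent.P042.H779.marg_empty hp, div_one]
    refine Finset.sum_congr rfl fun y _ => ?_
    simp
  have h3 : Vale.Agent.P042.H779.Ab.ce mu ∅ (fun _ => (1 : ℝ) * Real.log 1) x0 = 0 := by
    unfold Vale.Agent.P042.H779.Ab.ce
    simp
  have h4 : Vale.Agent.P042.H779.Ab.gdw lam mu ∅ x0 = 1 := by
    unfold Vale.Agent.P042.H779.Ab.gdw
    rw [Vale.Agent.P042.H779.marg_empty hp]
    simp
  rw [h3, h4, Real.log_one] at h1
  simp only [h2] at h1
  unfold costP at h1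
  have h5 : len ℓ (∅ : Finset ι) = 0 := by unfold len; simp
  rw [h5] at h1
  simpa using h1

/-- **the level one energies** of the law, over a set of sites of sizes at most `exp x` -/
theorem PLaw.energy (hγ : 0 ≤ Q.γ) (ha : 0 ≤ Q.a0) (hΛ : 0 ≤ Q.Λ) (hc : 0 ≤ Q.c0)
    {T : Finset ι} (hT : T ⊆ S) {x : ℝ} (hx : ∀ i ∈ T, ℓ i ≤ x) (hT2 : ∀ i ∈ T, ℓ i ≤ Q.Λ) :
    ∑ i ∈ T, ∑ a, lam i a * g1 lam mu i a ^ 2 ≤ 2 * Q.a0 * Real.exp (Q.a0 + 2 * Q.γ * x) := by
  have hp := H.ref.prob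
  have h0 : ∀ i, 0 ≤ ∑ b, lam i b * phi (m1 mu i b / lam i b) := fun i =>
    Finset.sum_nonneg fun b _ => mul_nonneg (H.ref.w_nonneg i b)
      (Vale.Agent.P042.H779.phi_nonneg (div_nonneg (Finset.sum_nonneg fun y _ => by
        split_ifs
        · exact hp.1 y
        · exact le_rfl) (H.ref.w_nonneg i b)))
  have h1 : ∀ i ∈ T, ∑ a, lam i a * g1 lam mu i a ^ 2 ≤
      2 * Real.exp (Q.a0 + 2 * Q.γ * x) * (lamP Q S ℓ i *
        ∑ b, lam i b * phi (m1 mu i b / lam i b)) := by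
    intro i hi
    have hl := H.l0 i
    have hB : 1 ≤ Real.exp (Q.a0 + Q.γ * ℓ i) :=
      Real.one_le_exp (by have := mul_nonneg hγ hl; linarith)
    have h2 : ∑ a, lam i a * g1 lam mu i a ^ 2 ≤
        2 * Real.exp (Q.a0 + Q.γ * ℓ i) * ∑ b, lam i b * phi (m1 mu i b / lam i b) := by
      rw [Finset.mul_sum]
      refine Finset.sum_le_sum fun a _ => ?_
      rw [g1_eq H.mu1]
      rcases (H.ref.w_nonneg i a).eq_or_lt with h3 | h3
      · rw [← h3]; simp
      · have h4 : m1 mu i a / lam i a ≤ Real.exp (Q.a0 + Q.γ * ℓ i) := by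
          rw [div_le_iff₀ h3]
          exact H.m1_le (hT2 i hi) a
        have h5 := Vale.Agent.P042.H779.sq_le_phi (y := m1 mu i a / lam i a)
          (div_nonneg (Finset.sum_nonneg fun y _ => by
            split_ifs
            · exact hp.1 y
            · exact le_rfl) h3.le) hB h4
        have h6 := mul_le_mul_of_nonneg_left h5 h3.le
        calc _ ≤ _ := h6
          _ = _ := by ring
    refine h2.trans ?_
    unfold lamP
    rw [if_pos (hT hi)]
    have h3 : 2 * Real.exp (Q.a0 + Q.γ * ℓ i) ≤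
        2 * Real.exp (Q.a0 + 2 * Q.γ * x) * Real.exp (-(Q.γ * ℓ i)) := by
      rw [mul_assoc, ← Real.exp_add]
      apply mul_le_mul_of_nonneg_left _ (by norm_num)
      apply Real.exp_le_exp.2
      have := mul_le_mul_of_nonneg_left (hx i hi) hγ
      linarith
    calc _ ≤ (2 * Real.exp (Q.a0 + 2 * Q.γ * x) * Real.exp (-(Q.γ * ℓ i))) *
          ∑ b, lam i b * phi (m1 mu i b / lam i b) := mul_le_mul_of_nonneg_right h3 (h0 i)
      _ = _ := by ring
  have h2 : ∑ i ∈ T, lamP Q S ℓ i * ∑ b, lam i b * phi (m1 mu i b / lam i b) ≤ Q.a0 :=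
    (Finset.sum_le_sum_of_subset_of_nonneg (Finset.subset_univ T) fun i _ _ =>
      mul_nonneg (by unfold lamP; split_ifs <;> positivity) (h0 i)).trans (H.kl hΛ hc)
  calc _ ≤ ∑ i ∈ T, 2 * Real.exp (Q.a0 + 2 * Q.γ * x) * (lamP Q S ℓ i *
        ∑ b, lam i b * phi (m1 mu i b / lam i b)) := Finset.sum_le_sum h1
    _ = 2 * Real.exp (Q.a0 + 2 * Q.γ * x) * ∑ i ∈ T, (lamP Q S ℓ i *
        ∑ b, lam i b * phi (m1 mu i b / lam i b)) := by rw [Finset.mul_sum]
    _ ≤ 2 * Real.exp (Q.a0 + 2 * Q.γ * x) * Q.a0 :=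
        mul_le_mul_of_nonneg_left h2 (by positivity)
    _ = _ := by ring

/-- the change of the reference at one site -/
theorem PLaw.energy_u (hγ : 0 ≤ Q.γ) {i : ι} {x : ℝ} (hx : ℓ i ≤ x) :
    ∑ a, u i a * g1 u mu i a ^ 2 ≤
      2 * Real.exp (Q.γ * x) * ∑ a, lam i a * g1 lam mu i a ^ 2 + 2 * H565.rho lam u i := by
  unfold H565.rho
  rw [Finset.mul_sum, Finset.mul_sum, ← Finset.sum_add_distrib]
  refine Finset.sum_le_sum fun a _ => ?_
  have hu := H.u0 i a
  have hl := H.ref.w_nonneg i a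
  rw [g1_eq H.mu1, g1_eq H.mu1]
  have h1 : m1 mu i a / u i a - 1 =
      (lam i a / u i a) * (m1 mu i a / lam i a - 1) + (lam i a / u i a - 1) := by
    rcases hl.eq_or_lt with h3 | h3
    · rw [← h3, H.ref.ac i a h3.symm]; simp
    · field_simp
      ring
  have h2 : lam i a / u i a ≤ Real.exp (Q.γ * x) := by
    rw [div_le_iff₀ hu]
    refine (H.up i a).trans (mul_le_mul_of_nonneg_right (Real.exp_le_exp.2 ?_) hu.le)
    exact mul_le_mul_of_nonneg_left hx hγ
  set D := m1 mu i a / lam i a - 1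
  set r := lam i a / u i a
  have h3 : u i a * r = lam i a := by simp only [r]; field_simp
  have h4 : u i a * (r * D + (r - 1)) ^ 2 ≤ 2 * (u i a * r) * r * D ^ 2 +
      2 * (u i a * (r - 1) ^ 2) := by
    nlinarith [mul_nonneg hu.le (sq_nonneg (r * D - (r - 1)))]
  have h5 : 2 * (u i a * r) * r * D ^ 2 ≤ 2 * Real.exp (Q.γ * x) * (lam i a * D ^ 2) := by
    rw [h3]
    have := mul_le_mul_of_nonneg_right h2 (mul_nonneg hl (sq_nonneg D))
    linarith
  rw [h1]
  linarith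

end one

section pair

variable {K : ∀ i, V i → V i → ℝ} {c : ι → ℝ} {v v' : ∀ i, V i → ℝ} {s : ∀ i, V i → V i → ℝ}
  {rho e : ι → ℝ} (H : PPair Q S ℓ es lo lam lam2 u K c v v' s rho e mu mu')
include H

/-- **the two references** -/
theorem PPair.refPair (hγ : 0 ≤ Q.γ) :
    H422.RefPair lam lam2 mu (fun i => Real.exp (Q.γ * ℓ i)) where
  n1 := H.law.ref.w_nonneg
  s1 := H.law.ref.w_sum
  n2 := H.nn
  s2 := H.one
  rr1 i := Real.one_le_exp (mul_nonneg hγ (H.law.l0 i))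
  le i a := by
    by_cases hi : lo i
    · rw [H.low i hi]
      exact le_mul_of_one_le_left (H.law.ref.w_nonneg i a)
        (Real.one_le_exp (mul_nonneg hγ (H.law.l0 i)))
    · rw [H.high i hi]
      exact H.law.up i a
  ac := H.law.ref.ac
  m0 := H.law.ref.prob.1
  m1' := H.law.ref.prob.2

/-- the pair in the other order (with the same kernels) -/
theorem PPair.refPair' (hγ : 0 ≤ Q.γ) :
    H422.RefPair lam lam2 mu' (fun i => Real.exp (Q.γ * ℓ i)) where
  n1 := H.law.ref.w_nonneg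
  s1 := H.law.ref.w_sum
  n2 := H.nn
  s2 := H.one
  rr1 i := Real.one_le_exp (mul_nonneg hγ (H.law.l0 i))
  le := (H.refPair hγ).le
  ac := H.law'.ref.ac
  m0 := H.law'.ref.prob.1
  m1' := H.law'.ref.prob.2

/-- level one energy of either law in the reference of the kernels -/
theorem PPair.energy2 {nu : (∀ i, V i) → ℝ} (L : PLaw Q S ℓ es lam u nu) (hγ : 0 ≤ Q.γ)
    (ha : 0 ≤ Q.a0) (hΛ : 0 ≤ Q.Λ) (hc : 0 ≤ Q.c0) (hk : Q.kap ≤ 1) (hp : 0 ≤ Q.p)
    {T : Finset ι} (hT : T ⊆ S) {x : ℝ} (hx : ∀ i ∈ T, ℓ i ≤ x) (hT2 : ∀ i ∈ T, ℓ i ≤ Q.Λ)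
    (hes : ∀ i ∈ T, es i = x) :
    ∑ i ∈ T, ∑ a, lam2 i a * g1 lam2 nu i a ^ 2 ≤
      4 * Q.a0 * Real.exp (Q.a0 + 3 * Q.γ * x) +
        (if (2 - Q.kap) * Q.p < x then 2 * Real.exp ((1 + Q.γ) * Q.p) else 0) := by
  classical
  rcases T.eq_empty_or_nonempty with hT0 | ⟨i0, hi0⟩
  · rw [hT0, Finset.sum_empty]
    positivity
  have hx0 : 0 ≤ x := (L.l0 i0).trans (hx i0 hi0)
  have hr0 : ∀ i, 0 ≤ H565.rho lam u i := fun i => by
    unfold H565.rho
    exact Finset.sum_nonneg fun a _ => mul_nonneg (L.u0 i a).le (sq_nonneg _)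
  have he1 : 1 ≤ Real.exp (Q.γ * x) := Real.one_le_exp (mul_nonneg hγ hx0)
  have hE0 : ∀ i, 0 ≤ ∑ a, lam i a * g1 lam nu i a ^ 2 := fun i =>
    Finset.sum_nonneg fun a _ => mul_nonneg (L.ref.w_nonneg i a) (sq_nonneg _)
  have h1 : ∀ i ∈ T, ∑ a, lam2 i a * g1 lam2 nu i a ^ 2 ≤
      2 * Real.exp (Q.γ * x) * ∑ a, lam i a * g1 lam nu i a ^ 2 +
        2 * (if (2 - Q.kap) * Q.p < x then H565.rho lam u i else 0) := by
    intro i hi
    by_cases hl : lo i
    · have h2 : ∑ a, lam2 i a * g1 lam2 nu i a ^ 2 = ∑ a, lam i a * g1 lam nu i a ^ 2 := by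
        have h3 : ∀ a, g1 lam2 nu i a = g1 lam nu i a := fun a => by
          rw [g1_eq L.mu1, g1_eq L.mu1, H.low i hl]
        simp only [h3, H.low i hl]
      rw [h2]
      have h4 := hE0 i
      have h5 : 0 ≤ 2 * (if (2 - Q.kap) * Q.p < x then H565.rho lam u i else 0) := by
        have := hr0 i
        split_ifs <;> positivity
      nlinarith
    · have h2 : ∑ a, lam2 i a * g1 lam2 nu i a ^ 2 = ∑ a, u i a * g1 u nu i a ^ 2 := by
        have h3 : ∀ a, g1 lam2 nu i a = g1 u nu i a := fun a => by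
          rw [g1_eq L.mu1, g1_eq L.mu1, H.high i hl]
        simp only [h3, H.high i hl]
      rw [h2, if_pos (by rw [← hes i hi]; exact H.lo2 i (hT hi) hl)]
      exact L.energy_u hγ (hx i hi)
  refine (Finset.sum_le_sum h1).trans ?_
  rw [Finset.sum_add_distrib, ← Finset.mul_sum, ← Finset.mul_sum]
  apply add_le_add
  · have h2 := mul_le_mul_of_nonneg_left (L.energy hγ ha hΛ hc hT hx hT2)
      (by positivity : 0 ≤ 2 * Real.exp (Q.γ * x))
    refine h2.trans (le_of_eq ?_)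
    have h3 : Real.exp (Q.a0 + 3 * Q.γ * x) =
        Real.exp (Q.γ * x) * Real.exp (Q.a0 + 2 * Q.γ * x) := by
      rw [← Real.exp_add]; congr 1; ring
    rw [h3]; ring
  · by_cases hxx : (2 - Q.kap) * Q.p < x
    · simp only [if_pos hxx]
      have h2 : ∑ i ∈ T, H565.rho lam u i ≤ Real.exp ((1 + Q.γ) * Q.p) := by
        refine le_trans ?_ (L.lev1 x (by nlinarith))
        apply Finset.sum_le_sum_of_subset_of_nonneg
        · intro i hi
          rw [Finset.mem_filter]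
          exact ⟨hT hi, by rw [hes i hi], by rw [hes i hi]; linarith⟩
        · exact fun i _ _ => hr0 i
      linarith
    · simp only [if_neg hxx]
      simp

end pair

section lev

variable {J : Type*} [DecidableEq J] {sc : ι → J} {sn : J → ℕ} {ell : J → ℝ} {K0 : ℕ}
  {h : ℝ} {K : ∀ i, V i → V i → ℝ} {c : ι → ℝ} {v v' : ∀ i, V i → ℝ}
  {s : ∀ i, V i → V i → ℝ} {rho e : ι → ℝ}

theorem lev_num {x h γ kap a0 p E : ℝ} {n : ℕ} (hn : (n : ℝ) ≤ Real.exp x)
    (hγ : 0 ≤ γ) (hγ1 : 12 * γ ≤ 1) (hk1 : kap ≤ 1) (hk : 2 * γ + kap ≤ h) (hh : 0 ≤ h)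
    (hx1 : 3 ≤ Real.exp (h / 2 * x)) (hx2 : 4 * a0 * Real.exp a0 ≤ Real.exp (x / 4)) (hx0 : 0 ≤ x)
    (hE : E ≤ 4 * a0 * Real.exp (a0 + 3 * γ * x) +
        (if (2 - kap) * p < x then 2 * Real.exp ((1 + γ) * p) else 0)) :
    1 * Real.exp (-(1 / 2) * x + h * x) * E + n * (1 * Real.exp (-x + h * x)) ≤
      Real.exp (2 * h * x) := by
  have h1 : Real.exp (-(1 / 2) * x + h * x) * (4 * a0 * Real.exp (a0 + 3 * γ * x)) ≤
      Real.exp (h * x) := by
    have e1 : Real.exp (-(1 / 2) * x + h * x) * (4 * a0 * Real.exp (a0 + 3 * γ * x)) =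
        (4 * a0 * Real.exp a0) * Real.exp ((3 * γ - 1 / 2) * x + h * x) := by
      have : Real.exp (-(1 / 2) * x + h * x) * Real.exp (a0 + 3 * γ * x) =
          Real.exp a0 * Real.exp ((3 * γ - 1 / 2) * x + h * x) := by
        rw [← Real.exp_add, ← Real.exp_add]; congr 1; ring
      calc _ = 4 * a0 * (Real.exp (-(1 / 2) * x + h * x) * Real.exp (a0 + 3 * γ * x)) := by ring
        _ = _ := by rw [this]; ring
    rw [e1]
    calc _ ≤ Real.exp (x / 4) * Real.exp ((3 * γ - 1 / 2) * x + h * x) :=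
          mul_le_mul_of_nonneg_right hx2 (Real.exp_pos _).le
      _ = Real.exp (x / 4 + ((3 * γ - 1 / 2) * x + h * x)) := by rw [← Real.exp_add]
      _ ≤ _ := by
          apply Real.exp_le_exp.2
          nlinarith
  have h2 : Real.exp (-(1 / 2) * x + h * x) *
      (if (2 - kap) * p < x then 2 * Real.exp ((1 + γ) * p) else 0) ≤
      2 * (Real.exp (h / 2 * x) * Real.exp (h * x)) := by
    by_cases hxx : (2 - kap) * p < x
    · rw [if_pos hxx]
      have e1 : Real.exp (-(1 / 2) * x + h * x) * (2 * Real.exp ((1 + γ) * p)) =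
          2 * Real.exp (-(1 / 2) * x + h * x + (1 + γ) * p) := by
        rw [Real.exp_add (-(1 / 2) * x + h * x)]; ring
      rw [e1, ← Real.exp_add]
      apply mul_le_mul_of_nonneg_left _ (by norm_num)
      apply Real.exp_le_exp.2
      have h3 : (2 - kap) * ((1 + γ) * p) ≤ (1 + γ) * x := by nlinarith
      have h4 : (1 + γ) * x ≤ (2 - kap) * (1 / 2 * x + h / 2 * x) := by
        have h5 : (2 - kap) * (1 / 2 * x + h / 2 * x) - (1 + γ) * x =
            x * (h - kap / 2 - kap * h / 2 - γ) := by ring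
        have h6 : 0 ≤ h - kap / 2 - kap * h / 2 - γ := by
          have := mul_le_mul_of_nonneg_right hk1 hh
          linarith
        nlinarith [mul_nonneg hx0 h6]
      have h7 : 0 < 2 - kap := by linarith
      have h8 : (1 + γ) * p ≤ 1 / 2 * x + h / 2 * x := by
        by_contra h9
        rw [not_le] at h9
        nlinarith [mul_lt_mul_of_pos_left h9 h7]
      linarith
    · rw [if_neg hxx, mul_zero]; positivity
  have h3 : (n : ℝ) * (1 * Real.exp (-x + h * x)) ≤ Real.exp (h * x) := by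
    calc _ ≤ Real.exp x * (1 * Real.exp (-x + h * x)) :=
          mul_le_mul_of_nonneg_right hn (by positivity)
      _ = _ := by rw [one_mul, ← Real.exp_add]; congr 1; ring
  have h4 : Real.exp (2 * h * x) = Real.exp (h / 2 * x) * Real.exp (h / 2 * x) *
      Real.exp (h * x) := by
    rw [← Real.exp_add, ← Real.exp_add]; congr 1; ring
  have h5 := mul_le_mul_of_nonneg_left hE (Real.exp_pos (-(1 / 2) * x + h * x)).le
  rw [mul_add] at h5
  rw [h4, one_mul]
  have h6 := Real.exp_pos (h * x)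
  have h7 : 2 * Real.exp (h / 2 * x) + 2 ≤ Real.exp (h / 2 * x) * Real.exp (h / 2 * x) := by
    nlinarith
  nlinarith [mul_le_mul_of_nonneg_right h7 h6.le]

/-- **the level one sums in the reference of the kernels** -/
theorem PPair.lev2 (H : PPair Q univ ℓ es lo lam lam2 u K c v v' s rho e mu mu')
    {nu : (∀ i, V i) → ℝ} (L : PLaw Q univ ℓ es lam u nu)
    (C : Scl Q K0 univ ℓ es sc sn ell) (hγ : 0 ≤ Q.γ) (hγ1 : 12 * Q.γ ≤ 1) (ha : 0 ≤ Q.a0)
    (hΛ : ∀ j, ell j ≤ Q.Λ) (hΛ0 : 0 ≤ Q.Λ) (hc : 0 ≤ Q.c0) (hk1 : Q.kap ≤ 1)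
    (hk : 2 * Q.γ + Q.kap ≤ h) (hh : 0 ≤ h) (hp : 0 ≤ Q.p) (hell : ∀ j, 0 ≤ ell j)
    (hx1 : ∀ j, 3 ≤ Real.exp (h / 2 * ell j))
    (hx2 : ∀ j, 4 * Q.a0 * Real.exp Q.a0 ≤ Real.exp (ell j / 4)) (l : J) :
    ∑ i with sc i = l, (H365.RR sc ell h 1 i * ∑ a, lam2 i a * g1 lam2 nu i a ^ 2 +
      H365.EE sc ell h 1 i) ≤ Real.exp (2 * h * ell l) := by
  have hes : ∀ i ∈ univ.filter (fun i => sc i = l), es i = ell l := fun i hi => by
    rw [C.es1 i (Finset.mem_univ i), (Finset.mem_filter.1 hi).2]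
  have hl : ∀ i ∈ univ.filter (fun i => sc i = l), ℓ i ≤ ell l := fun i hi => by
    rw [← hes i hi]; exact C.up i (Finset.mem_univ i)
  have h1 := H.energy2 L hγ ha hΛ0 hc hk1 hp (T := univ.filter fun i => sc i = l)
    (Finset.subset_univ _) hl (fun i hi => (hl i hi).trans (hΛ l)) hes
  have hcard : ((univ.filter fun i => sc i = l).card : ℝ) ≤ Real.exp (ell l) := by
    refine le_trans ?_ (C.card (ell l))
    exact_mod_cast Finset.card_le_card fun i hi => by
      rw [Finset.mem_filter]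
      exact ⟨Finset.mem_univ i, hes i hi⟩
  have h2 := lev_num hcard hγ hγ1 hk1 hk hh (hx1 l) (hx2 l) (hell l) h1
  refine le_trans (le_of_eq ?_) h2
  rw [Finset.sum_add_distrib]
  congr 1
  · rw [Finset.mul_sum]
    refine Finset.sum_congr rfl fun i hi => ?_
    unfold H365.RR
    rw [(Finset.mem_filter.1 hi).2]
  · have h3 : ∑ i with sc i = l, H365.EE sc ell h 1 i =
        ∑ i with sc i = l, 1 * Real.exp (-ell l + h * ell l) :=
      Finset.sum_congr rfl fun i hi => by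
        unfold H365.EE
        rw [(Finset.mem_filter.1 hi).2]
    rw [h3, Finset.sum_const, nsmul_eq_mul]

/-- **the level one sums in the reference of the law** -/
theorem PLaw.lev (L : PLaw Q univ ℓ es lam u mu)
    (C : Scl Q K0 univ ℓ es sc sn ell) (hγ : 0 ≤ Q.γ) (hγ1 : 12 * Q.γ ≤ 1) (ha : 0 ≤ Q.a0)
    (hΛ : ∀ j, ell j ≤ Q.Λ) (hΛ0 : 0 ≤ Q.Λ) (hc : 0 ≤ Q.c0)
    (hk : 2 * Q.γ ≤ h) (hh : 0 ≤ h) (hell : ∀ j, 0 ≤ ell j)
    (hx1 : ∀ j, 3 ≤ Real.exp (h / 2 * ell j))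
    (hx2 : ∀ j, 4 * Q.a0 * Real.exp Q.a0 ≤ Real.exp (ell j / 4)) (l : J) :
    ∑ i with sc i = l, (H365.RR sc ell h 1 i * ∑ a, lam i a * g1 lam mu i a ^ 2 +
      H365.EE sc ell h 1 i) ≤ Real.exp (2 * h * ell l) := by
  have hes : ∀ i ∈ univ.filter (fun i => sc i = l), es i = ell l := fun i hi => by
    rw [C.es1 i (Finset.mem_univ i), (Finset.mem_filter.1 hi).2]
  have hl : ∀ i ∈ univ.filter (fun i => sc i = l), ℓ i ≤ ell l := fun i hi => by
    rw [← hes i hi]; exact C.up i (Finset.mem_univ i)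
  have h1 := L.energy hγ ha hΛ0 hc (T := univ.filter fun i => sc i = l)
    (Finset.subset_univ _) hl (fun i hi => (hl i hi).trans (hΛ l))
  have hcard : ((univ.filter fun i => sc i = l).card : ℝ) ≤ Real.exp (ell l) := by
    refine le_trans ?_ (C.card (ell l))
    exact_mod_cast Finset.card_le_card fun i hi => by
      rw [Finset.mem_filter]
      exact ⟨Finset.mem_univ i, hes i hi⟩
  have h1' : ∑ i with sc i = l, ∑ a, lam i a * g1 lam mu i a ^ 2 ≤
      4 * Q.a0 * Real.exp (Q.a0 + 3 * Q.γ * ell l) +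
        (if (2 - (0 : ℝ)) * (ell l) < ell l then 2 * Real.exp ((1 + Q.γ) * ell l) else 0) := by
    rw [if_neg (by have := hell l; linarith), add_zero]
    refine h1.trans ?_
    have h2 : Real.exp (Q.a0 + 2 * Q.γ * ell l) ≤ Real.exp (Q.a0 + 3 * Q.γ * ell l) := by
      apply Real.exp_le_exp.2
      nlinarith [hell l]
    have h3 : 0 ≤ Real.exp (Q.a0 + 2 * Q.γ * ell l) := (Real.exp_pos _).le
    nlinarith [mul_le_mul_of_nonneg_left h2 ha, mul_nonneg ha h3]
  have h2 := lev_num hcard hγ hγ1 (by norm_num) (by linarith) hh (hx1 l) (hx2 l) (hell l) h1'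
  refine le_trans (le_of_eq ?_) h2
  rw [Finset.sum_add_distrib]
  congr 1
  · rw [Finset.mul_sum]
    refine Finset.sum_congr rfl fun i hi => ?_
    unfold H365.RR
    rw [(Finset.mem_filter.1 hi).2]
  · have h3 : ∑ i with sc i = l, H365.EE sc ell h 1 i =
        ∑ i with sc i = l, 1 * Real.exp (-ell l + h * ell l) :=
      Finset.sum_congr rfl fun i hi => by
        unfold H365.EE
        rw [(Finset.mem_filter.1 hi).2]
    rw [h3, Finset.sum_const, nsmul_eq_mul]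

end lev

end Vale.Agent.P042.H92
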